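/-
Row 327 / S0505 (track D2, coordinator helper91): definitions for the explicit homogeneous
depth-five circuit for iterated matrix multiplication.

Parameters: `n = n' + 1` matrices of order `n`, blocks of `t = t' + 1` consecutive matrices,
`ρ + 1` blocks, with `n ≤ (ρ + 1) * t`; the sequence of matrices is padded by identity matrices.
-/
import Crest.Prelude.Def_SPSPS

set_option autoImplicit false

namespace Crest.Agent.Helper91.S0505

open Crest.ArithCircuit MvPolynomial

/-- The path `i, f 0, …, f (m - 1), j` with prescribed end points and interior vertices `f`. -/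
def ext {n m : ℕ} (i : Fin n) (f : Fin m → Fin n) (j : Fin n) : Fin (m + 2) → Fin n :=
  Fin.cons i (Fin.snoc f j)

/-- The index type of the variables. -/
abbrev Var (n : ℕ) : Type := Fin n × Fin n × Fin n

/-- The padded sequence of matrices: the `k`-th variable matrix for `k < n`, the identity matrix
for `k ≥ n`. -/
noncomputable def padMat (K : Type*) [CommSemiring K] (n k : ℕ) :
    Matrix (Fin n) (Fin n) (MvPolynomial (Var n) K) :=
  if h : k < n then varMatrix K n ⟨k, h⟩ else 1

/-- The `g`-th block: the product of the `t` padded matrices `g * t, …, g * t + t - 1`. -/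
noncomputable def blockMat (K : Type*) [CommSemiring K] (n t g : ℕ) :
    Matrix (Fin n) (Fin n) (MvPolynomial (Var n) K) :=
  (List.ofFn fun s : Fin t => padMat K n (g * t + s.val)).prod

/-- The steps of block `g` that are genuine (not padded) matrices. -/
def realSteps (n t g : ℕ) : Finset (Fin t) :=
  Finset.univ.filter fun s => g * t + s.val < n

/-- Index types of the four inner layers of the circuit. -/
abbrev PIdx (n' t' ρ : ℕ) : Type :=
  Fin (ρ + 1) × Fin (n' + 1) × Fin (n' + 1) × (Fin t' → Fin (n' + 1))

abbrev SIdx (n' ρ : ℕ) : Type := Fin (ρ + 1) × Fin (n' + 1) × Fin (n' + 1)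

abbrev RIdx (n' ρ : ℕ) : Type := Fin ρ → Fin (n' + 1)

/-- The circuit.
* leaves and bottom sums: one per variable;
* lower product gate `(g, i, j, w)`: the monomial of the path `i, w, j` through block `g`
  (only the genuine steps contribute a variable);
* middle sum gate `(g, i, j)`: the `(i, j)` entry of block `g`, the sum over all interior
  vertices `w` that are constant along the padded steps;
* top product gate `f`: the product over the blocks along the path `0, f, 0`;
* output: the sum of all top product gates. -/
noncomputable def circ (K : Type*) [CommSemiring K] (n' t' ρ : ℕ) :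
    SPSPS K (Var (n' + 1)) (Var (n' + 1)) (Var (n' + 1)) (PIdx n' t' ρ) (SIdx n' ρ) (RIdx n' ρ) where
  leaf := Sum.inl
  inB b := {b}
  coefB _ _ := 1
  inP p := (realSteps (n' + 1) (t' + 1) p.1.val).val.map fun s =>
    (Fin.ofNat (n' + 1) (p.1.val * (t' + 1) + s.val),
      ext p.2.1 p.2.2.2 p.2.2.1 s.castSucc, ext p.2.1 p.2.2.2 p.2.2.1 s.succ)
  inS q := (Finset.univ.filter fun w : Fin t' → Fin (n' + 1) =>
      ∀ s : Fin (t' + 1), n' + 1 ≤ q.1.val * (t' + 1) + s.val →
        ext q.2.1 w q.2.2 s.castSucc = ext q.2.1 w q.2.2 s.succ).map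
    ⟨fun w => (q.1, q.2.1, q.2.2, w), fun _ _ h => by simpa using h⟩
  coefS _ _ := 1
  inR f := (Finset.univ : Finset (Fin (ρ + 1))).val.map fun g =>
    (g, ext 0 f 0 g.castSucc, ext 0 f 0 g.succ)
  inOut := Finset.univ
  coefOut _ := 1

end Crest.Agent.Helper91.S0505
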