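/-
helper91 -- S0505 squad (track D2): BLUEPRINT of the leaves.  All bodies are `sorry`;
THIS FILE IS NEVER IMPORTED by graded files.  An owner copies the statement of a leaf (same
signature, same name) into `Crest/Agent/<Seat>/S0505/<Leaf>.lean`, namespace
`Crest.Agent.<Seat>.S0505`, importing `Crest.Agent.Helper91.S0505.Defs` (definitions only,
sorry-free), proves it, checks `example : @mine = @Crest.Agent.Helper91.S0505.Blueprint.<name> := rfl`
is at least well-typed against the blueprint signature, lands the file and reports on the board.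

The circuit (Defs.lean, `circ K n' t' ρ`): n = n' + 1 matrices of order n, padded by identity
matrices to (ρ + 1) * (t' + 1) matrices (`padMat`), cut into ρ + 1 blocks of t = t' + 1 matrices
(`blockMat`).  Leaves = bottom sums = variables; lower product gate (g, i, j, w) = monomial of
the path i, w, j through block g (genuine steps only); middle sum gate (g, i, j) = entry (i, j)
of block g; top product gate f = product along the block path 0, f, 0; output = sum of all.

Leaves A, B, C, D are independent of the circuit; E, F, G are about `circ`; H is the assembly.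
-/
import Crest.Agent.Helper91.S0505.Defs

set_option autoImplicit false

namespace Crest.Agent.Helper91.S0505.Blueprint

open Crest.ArithCircuit MvPolynomial Crest.Agent.Helper91.S0505

/-! ## Leaf A -- Reindex: every finite circuit can be re-indexed by `Fin` types -/

theorem exists_fin_reindex {K ι L B P S R : Type*} [CommSemiring K]
    [Fintype L] [Fintype B] [Fintype P] [Fintype S] [Fintype R] (C : SPSPS K ι L B P S R) :
    ∃ C' : SPSPS K ι (Fin (Fintype.card L)) (Fin (Fintype.card B)) (Fin (Fintype.card P))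
        (Fin (Fintype.card S)) (Fin (Fintype.card R)),
      (C.IsHomogeneous → C'.IsHomogeneous) ∧ C'.output = C.output := sorry

/-! ## Leaf B -- PathSum: an entry of a product of matrices is a sum over paths -/

theorem ofFn_prod_apply {R : Type*} [CommSemiring R] {n m : ℕ}
    (Q : Fin (m + 1) → Matrix (Fin n) (Fin n) R) (i j : Fin n) :
    (List.ofFn Q).prod i j =
      ∑ f : Fin m → Fin n, ∏ g : Fin (m + 1), Q g (ext i f j g.castSucc) (ext i f j g.succ) :=
  sorry

/-! ## Leaf C -- Chunk: the padded product, cut into blocks, is the IMM polynomial -/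

theorem imm_eq_blocks (K : Type*) [CommSemiring K] (n' t ρ : ℕ) (h : n' + 1 ≤ (ρ + 1) * t) :
    imm K (n' + 1) =
      (List.ofFn fun g : Fin (ρ + 1) => blockMat K (n' + 1) t g.val).prod 0 0 := sorry

/-! ## Leaf D -- Arith: the parameters t = ⌈√n⌉₊, r = ⌈n / t⌉₊ and the real size bound -/

theorem params (n : ℕ) (hn : 2 ≤ n) :
    1 ≤ ⌈Real.sqrt n⌉₊ ∧ 1 ≤ ⌈(n : ℝ) / ⌈Real.sqrt n⌉₊⌉₊ ∧
      n ≤ ⌈(n : ℝ) / ⌈Real.sqrt n⌉₊⌉₊ * ⌈Real.sqrt n⌉₊ := sorry

theorem size_bound_real (n : ℕ) (hn : 2 ≤ n) :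
    ((2 * n ^ 3 + ⌈(n : ℝ) / ⌈Real.sqrt n⌉₊⌉₊ * n ^ 2 +
          ⌈(n : ℝ) / ⌈Real.sqrt n⌉₊⌉₊ * n ^ (⌈Real.sqrt n⌉₊ + 1) +
          n ^ (⌈(n : ℝ) / ⌈Real.sqrt n⌉₊⌉₊ - 1) + 1 : ℕ) : ℝ) ≤
      (n : ℝ) ^ (Real.sqrt n + 4) := sorry

/-! ## Leaf E -- Values of the circuit (uses B for both levels, C for the output) -/

theorem circ_valB (K : Type*) [CommSemiring K] (n' t' ρ : ℕ) (b : Var (n' + 1)) :
    (circ K n' t' ρ).valB b = X b := sorry

theorem circ_valP (K : Type*) [CommSemiring K] (n' t' ρ : ℕ) (p : PIdx n' t' ρ) :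
    (circ K n' t' ρ).valP p =
      ∏ s ∈ realSteps (n' + 1) (t' + 1) p.1.val,
        X (Fin.ofNat (n' + 1) (p.1.val * (t' + 1) + s.val),
          ext p.2.1 p.2.2.2 p.2.2.1 s.castSucc, ext p.2.1 p.2.2.2 p.2.2.1 s.succ) := sorry

theorem circ_valS (K : Type*) [CommSemiring K] (n' t' ρ : ℕ) (q : SIdx n' ρ) :
    (circ K n' t' ρ).valS q = blockMat K (n' + 1) (t' + 1) q.1.val q.2.1 q.2.2 := sorry

theorem circ_output (K : Type*) [CommSemiring K] (n' t' ρ : ℕ)
    (h : n' + 1 ≤ (ρ + 1) * (t' + 1)) : (circ K n' t' ρ).output = imm K (n' + 1) := sorry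

/-! ## Leaf F -- Homogeneity of the circuit (formal degrees; no hypothesis on the parameters) -/

theorem circ_isHomogeneous (K : Type*) [CommSemiring K] (n' t' ρ : ℕ) :
    (circ K n' t' ρ).IsHomogeneous := sorry

/-! ## Leaf G -- Size of the circuit -/

theorem circ_size (K : Type*) [CommSemiring K] (n' t' ρ : ℕ) :
    (circ K n' t' ρ).size =
      2 * (n' + 1) ^ 3 + (ρ + 1) * (n' + 1) ^ 2 + (ρ + 1) * (n' + 1) ^ (t' + 1 + 1) +
        (n' + 1) ^ ρ + 1 := sorry

end Crest.Agent.Helper91.S0505.Blueprint
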