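/-
Row 327 / S0505, leaf E: the values computed at the gates of the circuit `circ`
(uses leaf B = helper31's `ofFn_prod_apply` and leaf C = helper45's `imm_eq_blocks`).
-/
import Crest.Agent.Helper91.S0505.Defs
import Crest.Agent.Helper31.S0505.PathSum
import Crest.Agent.Helper45.S0505.Chunk

set_option autoImplicit false

namespace Crest.Agent.Helper91.S0505

open Crest.ArithCircuit MvPolynomial

theorem circ_valB (K : Type*) [CommSemiring K] (n' t' ρ : ℕ) (b : Var (n' + 1)) :
    (circ K n' t' ρ).valB b = X b := by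
  simp [SPSPS.valB, SPSPS.leafVal, circ]

theorem circ_valP (K : Type*) [CommSemiring K] (n' t' ρ : ℕ) (p : PIdx n' t' ρ) :
    (circ K n' t' ρ).valP p =
      ∏ s ∈ realSteps (n' + 1) (t' + 1) p.1.val,
        X (Fin.ofNat (n' + 1) (p.1.val * (t' + 1) + s.val),
          ext p.2.1 p.2.2.2 p.2.2.1 s.castSucc, ext p.2.1 p.2.2.2 p.2.2.1 s.succ) := by
  have h : (circ K n' t' ρ).inP p = (realSteps (n' + 1) (t' + 1) p.1.val).val.map fun s =>
    ((Fin.ofNat (n' + 1) (p.1.val * (t' + 1) + s.val),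
      ext p.2.1 p.2.2.2 p.2.2.1 s.castSucc, ext p.2.1 p.2.2.2 p.2.2.1 s.succ) : Var (n' + 1)) := rfl
  rw [SPSPS.valP, h, Multiset.map_map, Finset.prod]
  congr 1
  apply Multiset.map_congr rfl
  intro s _
  simp [circ_valB]

/-- An entry of a padded matrix. -/
theorem padMat_apply (K : Type*) [CommSemiring K] (n' k : ℕ) (a b : Fin (n' + 1)) :
    padMat K (n' + 1) k a b =
      if k < n' + 1 then X (Fin.ofNat (n' + 1) k, a, b) else if a = b then 1 else 0 := by
  unfold padMat
  by_cases h : k < n' + 1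
  · rw [dif_pos h, if_pos h]
    simp only [varMatrix, Matrix.of_apply]
    congr 2
    apply Fin.ext
    simp [Fin.ofNat, Nat.mod_eq_of_lt h]
  · rw [dif_neg h, if_neg h, Matrix.one_apply]

theorem circ_valS (K : Type*) [CommSemiring K] (n' t' ρ : ℕ) (q : SIdx n' ρ) :
    (circ K n' t' ρ).valS q = blockMat K (n' + 1) (t' + 1) q.1.val q.2.1 q.2.2 := by
  obtain ⟨g, i, j⟩ := q
  have h : (circ K n' t' ρ).inS (g, i, j) =
      (Finset.univ.filter fun w : Fin t' → Fin (n' + 1) =>
        ∀ s : Fin (t' + 1), n' + 1 ≤ g.val * (t' + 1) + s.val →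
          ext i w j s.castSucc = ext i w j s.succ).map
        ⟨fun w => ((g, i, j, w) : PIdx n' t' ρ), fun _ _ h => by simpa using h⟩ := rfl
  have hc : ∀ p, (circ K n' t' ρ).coefS (g, i, j) p = 1 := fun _ => rfl
  rw [SPSPS.valS, h, Finset.sum_map]
  simp only [Function.Embedding.coeFn_mk, hc, one_smul, circ_valP]
  rw [blockMat, Crest.Agent.Helper31.S0505.ofFn_prod_apply, Finset.sum_filter]
  apply Finset.sum_congr rfl
  intro w _
  simp only [padMat_apply]
  rw [Finset.prod_ite, realSteps]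
  by_cases hw : ∀ s : Fin (t' + 1), n' + 1 ≤ g.val * (t' + 1) + s.val →
      ext i w j s.castSucc = ext i w j s.succ
  · rw [if_pos hw]
    have h2 : (∏ x ∈ Finset.univ.filter fun x : Fin (t' + 1) => ¬ g.val * (t' + 1) + x.val < n' + 1,
        (if ext i w j x.castSucc = ext i w j x.succ then 1 else 0 :
          MvPolynomial (Var (n' + 1)) K)) = 1 := by
      apply Finset.prod_eq_one
      intro s hs
      rw [Finset.mem_filter] at hs
      exact if_pos (hw s (not_lt.mp hs.2))
    rw [h2, mul_one]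
  · rw [if_neg hw]
    push Not at hw
    obtain ⟨s, hs, hne⟩ := hw
    have h2 : (∏ x ∈ Finset.univ.filter fun x : Fin (t' + 1) => ¬ g.val * (t' + 1) + x.val < n' + 1,
        (if ext i w j x.castSucc = ext i w j x.succ then 1 else 0 :
          MvPolynomial (Var (n' + 1)) K)) = 0 := by
      apply Finset.prod_eq_zero (i := s)
      · rw [Finset.mem_filter]
        exact ⟨Finset.mem_univ _, not_lt.mpr hs⟩
      · exact if_neg hne
    rw [h2, mul_zero]

theorem circ_valR (K : Type*) [CommSemiring K] (n' t' ρ : ℕ) (f : RIdx n' ρ) :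
    (circ K n' t' ρ).valR f =
      ∏ g : Fin (ρ + 1), blockMat K (n' + 1) (t' + 1) g.val
        (ext 0 f 0 g.castSucc) (ext 0 f 0 g.succ) := by
  have h : (circ K n' t' ρ).inR f = (Finset.univ : Finset (Fin (ρ + 1))).val.map fun g =>
      ((g, ext 0 f 0 g.castSucc, ext 0 f 0 g.succ) : SIdx n' ρ) := rfl
  rw [SPSPS.valR, h, Multiset.map_map, Finset.prod]
  congr 1
  apply Multiset.map_congr rfl
  intro g _
  simp [circ_valS]

theorem circ_output (K : Type*) [CommSemiring K] (n' t' ρ : ℕ)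
    (h : n' + 1 ≤ (ρ + 1) * (t' + 1)) : (circ K n' t' ρ).output = imm K (n' + 1) := by
  have h1 : (circ K n' t' ρ).inOut = Finset.univ := rfl
  have hc : ∀ f, (circ K n' t' ρ).coefOut f = 1 := fun _ => rfl
  rw [SPSPS.output, h1, Crest.Agent.Helper45.S0505.imm_eq_blocks K n' (t' + 1) ρ h, Crest.Agent.Helper31.S0505.ofFn_prod_apply]
  apply Finset.sum_congr rfl
  intro f _
  rw [hc, one_smul, circ_valR]

end Crest.Agent.Helper91.S0505
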