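/-
Row 327 / S0505, leaf H: assembly of the final statement (the explicit homogeneous depth-five
circuit for iterated matrix multiplication with the exact size bound).
Uses: Defs/Values/Homog/Size (helper91), PathSum (helper31), Chunk (helper45),
Reindex + SizeBound (helper62).
-/
import Crest.Agent.Helper91.S0505.Defs
import Crest.Agent.Helper91.S0505.Size
import Crest.Agent.Helper91.S0505.Values
import Crest.Agent.Helper91.S0505.Homog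
import Crest.Agent.Helper62.S0505.Reindex
import Crest.Agent.Helper62.S0505.SizeBound

set_option autoImplicit false
universe u

namespace Crest.Agent.Helper91.S0505

open Crest.ArithCircuit MvPolynomial Crest.Agent.Helper62.S0505

theorem final (K : Type u) [Field K] (n : ℕ) (hn : 2 ≤ n) :
    ∃ (l b p s r : ℕ)
      (C : Crest.ArithCircuit.SPSPS K (Fin n × Fin n × Fin n) (Fin l) (Fin b) (Fin p) (Fin s) (Fin r)),
      C.IsHomogeneous ∧ C.output = Crest.ArithCircuit.imm K n ∧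
        C.size ≤ 2 * n ^ 3 + ⌈(n : ℝ) / ⌈Real.sqrt n⌉₊⌉₊ * n ^ 2 +
          ⌈(n : ℝ) / ⌈Real.sqrt n⌉₊⌉₊ * n ^ (⌈Real.sqrt n⌉₊ + 1) +
          n ^ (⌈(n : ℝ) / ⌈Real.sqrt n⌉₊⌉₊ - 1) + 1 ∧
        (C.size : ℝ) ≤ (n : ℝ) ^ (Real.sqrt n + 4) := by
  obtain ⟨n', rfl⟩ : ∃ n', n = n' + 1 := ⟨n - 1, by omega⟩
  obtain ⟨ht2, -, -, -⟩ := ceil_sqrt_facts (n' + 1) hn
  obtain ⟨hr1, -⟩ := ceil_div_facts (n' + 1) hn
  have hbound := size_bound (n' + 1) hn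
  generalize ht : ⌈Real.sqrt ((n' + 1 : ℕ) : ℝ)⌉₊ = t at ht2 hr1 hbound ⊢
  generalize hr : ⌈((n' + 1 : ℕ) : ℝ) / (t : ℝ)⌉₊ = r at hr1 hbound ⊢
  obtain ⟨t', rfl⟩ : ∃ t', t = t' + 1 := ⟨t - 1, by omega⟩
  obtain ⟨ρ, rfl⟩ : ∃ ρ, r = ρ + 1 := ⟨r - 1, by omega⟩
  have hnrt : n' + 1 ≤ (ρ + 1) * (t' + 1) := by
    have h1 : ((n' + 1 : ℕ) : ℝ) / ((t' + 1 : ℕ) : ℝ) ≤ ((ρ + 1 : ℕ) : ℝ) := by
      rw [← hr]; exact Nat.le_ceil _
    have htpos : (0 : ℝ) < ((t' + 1 : ℕ) : ℝ) := by exact_mod_cast Nat.succ_pos t'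
    rw [div_le_iff₀ htpos] at h1
    exact_mod_cast h1
  obtain ⟨l, b, p, s, r', C', hh, ho, hs⟩ :=
    exists_fin_of_fintype (circ K n' t' ρ) (circ_isHomogeneous K n' t' ρ)
  have hsize : C'.size = 2 * (n' + 1) ^ 3 + (ρ + 1) * (n' + 1) ^ 2 +
      (ρ + 1) * (n' + 1) ^ (t' + 1 + 1) + (n' + 1) ^ (ρ + 1 - 1) + 1 := by
    rw [hs, circ_size]; simp
  refine ⟨l, b, p, s, r', C', hh, ho.trans (circ_output K n' t' ρ hnrt), hsize.le, ?_⟩
  rw [hsize]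
  exact hbound

end Crest.Agent.Helper91.S0505
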