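/-
Row 327 / S0505, leaf F (hedge copy by the coordinator): the circuit `circ` is syntactically
homogeneous.
-/
import Crest.Agent.Helper91.S0505.Defs

set_option autoImplicit false

namespace Crest.Agent.Helper91.S0505

open Crest.ArithCircuit MvPolynomial

theorem ext_const {n m : ℕ} (i j : Fin n) (k : Fin (m + 2)) (hk : k ≠ 0) :
    ext i (fun _ : Fin m => j) j k = j := by
  induction k using Fin.cases with
  | zero => exact absurd rfl hk
  | succ k =>
    rw [ext, Fin.cons_succ]
    induction k using Fin.lastCases with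
    | last => rw [Fin.snoc_last]
    | cast k => rw [Fin.snoc_castSucc]

theorem circ_leafDeg (K : Type*) [CommSemiring K] (n' t' ρ : ℕ) (l : Var (n' + 1)) :
    (circ K n' t' ρ).leafDeg l = 1 := rfl

theorem circ_degB (K : Type*) [CommSemiring K] (n' t' ρ : ℕ) (b : Var (n' + 1)) :
    (circ K n' t' ρ).degB b = 1 := by
  have h : (circ K n' t' ρ).inB b = {b} := rfl
  rw [SPSPS.degB, h, Finset.sup_singleton, circ_leafDeg]

theorem circ_degP (K : Type*) [CommSemiring K] (n' t' ρ : ℕ) (p : PIdx n' t' ρ) :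
    (circ K n' t' ρ).degP p = (realSteps (n' + 1) (t' + 1) p.1.val).card := by
  have h : (circ K n' t' ρ).inP p = (realSteps (n' + 1) (t' + 1) p.1.val).val.map fun s =>
    ((Fin.ofNat (n' + 1) (p.1.val * (t' + 1) + s.val),
      ext p.2.1 p.2.2.2 p.2.2.1 s.castSucc, ext p.2.1 p.2.2.2 p.2.2.1 s.succ) : Var (n' + 1)) := rfl
  rw [SPSPS.degP, h, Multiset.map_map]
  have h2 : ((circ K n' t' ρ).degB ∘ fun s : Fin (t' + 1) =>
      ((Fin.ofNat (n' + 1) (p.1.val * (t' + 1) + s.val),
        ext p.2.1 p.2.2.2 p.2.2.1 s.castSucc, ext p.2.1 p.2.2.2 p.2.2.1 s.succ) : Var (n' + 1))) =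
      fun _ => 1 := by
    funext s
    exact circ_degB K n' t' ρ _
  rw [h2, Multiset.map_const', Multiset.sum_replicate, smul_eq_mul, mul_one]
  rfl

theorem circ_degS (K : Type*) [CommSemiring K] (n' t' ρ : ℕ) (q : SIdx n' ρ) :
    (circ K n' t' ρ).degS q = (realSteps (n' + 1) (t' + 1) q.1.val).card := by
  obtain ⟨g, i, j⟩ := q
  have h : (circ K n' t' ρ).inS (g, i, j) =
      (Finset.univ.filter fun w : Fin t' → Fin (n' + 1) =>
        ∀ s : Fin (t' + 1), n' + 1 ≤ g.val * (t' + 1) + s.val →
          ext i w j s.castSucc = ext i w j s.succ).map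
        ⟨fun w => ((g, i, j, w) : PIdx n' t' ρ), fun _ _ h => by simpa using h⟩ := rfl
  apply le_antisymm
  · rw [SPSPS.degS]
    apply Finset.sup_le
    intro p hp
    rw [h, Finset.mem_map] at hp
    obtain ⟨w, -, rfl⟩ := hp
    rw [circ_degP]
    exact le_rfl
  · by_cases hc : realSteps (n' + 1) (t' + 1) g.val = ∅
    · simp [hc]
    · obtain ⟨s₀, hs₀⟩ := Finset.nonempty_iff_ne_empty.mpr hc
      rw [realSteps, Finset.mem_filter] at hs₀
      have hmem : ((g, i, j, fun _ => j) : PIdx n' t' ρ) ∈ (circ K n' t' ρ).inS (g, i, j) := by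
        rw [h, Finset.mem_map]
        refine ⟨fun _ => j, ?_, rfl⟩
        rw [Finset.mem_filter]
        refine ⟨Finset.mem_univ _, ?_⟩
        intro s hs
        have hs1 : s.val ≠ 0 := by
          intro h0
          have := hs₀.2
          omega
        rw [ext_const, ext_const]
        · exact Fin.succ_ne_zero s
        · intro h0
          apply hs1
          have := congrArg Fin.val h0
          simpa using this
      have hle := Finset.le_sup (f := (circ K n' t' ρ).degP) hmem
      rw [circ_degP] at hle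
      exact hle

theorem circ_degR (K : Type*) [CommSemiring K] (n' t' ρ : ℕ) (f : RIdx n' ρ) :
    (circ K n' t' ρ).degR f =
      ∑ g : Fin (ρ + 1), (realSteps (n' + 1) (t' + 1) g.val).card := by
  have h : (circ K n' t' ρ).inR f = (Finset.univ : Finset (Fin (ρ + 1))).val.map fun g =>
      ((g, ext 0 f 0 g.castSucc, ext 0 f 0 g.succ) : SIdx n' ρ) := rfl
  rw [SPSPS.degR, h, Multiset.map_map, Finset.sum]
  congr 1
  apply Multiset.map_congr rfl
  intro g _
  simp [circ_degS]

theorem circ_isHomogeneous (K : Type*) [CommSemiring K] (n' t' ρ : ℕ) :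
    (circ K n' t' ρ).IsHomogeneous := by
  refine ⟨?_, ?_, ?_⟩
  · intro b l _
    rw [circ_leafDeg, circ_degB]
  · intro q p hp
    have h : (circ K n' t' ρ).inS q =
      (Finset.univ.filter fun w : Fin t' → Fin (n' + 1) =>
        ∀ s : Fin (t' + 1), n' + 1 ≤ q.1.val * (t' + 1) + s.val →
          ext q.2.1 w q.2.2 s.castSucc = ext q.2.1 w q.2.2 s.succ).map
        ⟨fun w => ((q.1, q.2.1, q.2.2, w) : PIdx n' t' ρ), fun _ _ h => by simpa using h⟩ := rfl
    rw [h, Finset.mem_map] at hp
    obtain ⟨w, -, rfl⟩ := hp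
    rw [circ_degP, circ_degS]
    rfl
  · intro f _
    rw [circ_degR]
    apply le_antisymm
    · have hle := Finset.le_sup (f := (circ K n' t' ρ).degR)
        (Finset.mem_univ (f : RIdx n' ρ))
      rw [circ_degR] at hle
      exact hle
    · rw [SPSPS.degOut]
      apply Finset.sup_le
      intro f' _
      rw [circ_degR]

end Crest.Agent.Helper91.S0505
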